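import Vale.Agent.P067.Link.Main
import Vale.Agent.P067.Top.UpFamily

/-!
# P067: bounded-degree coboundary expanders in every dimension
-/

namespace Vale.Agent.Results.P067.BoundedDegree

open Finset Vale.P067

/-- For every `d ≥ 1` there are connected pure `d`-complexes with arbitrarily many vertices,
bounded degree and uniform coboundary expansion. -/
theorem result : ∀ d : ℕ, 1 ≤ d → ∃ D : ℕ, ∃ ε : ℝ, 0 < ε ∧ ∀ m : ℕ,
    ∃ (V : Type) (_ : DecidableEq V) (T : Finset (Finset V)),
      T.Nonempty ∧ (∀ t ∈ T, t.card = d + 1) ∧ m ≤ (faces T 1).card ∧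
      (∀ v, (star T {v}).card ≤ D) ∧
      (∀ u v : V, {u} ∈ faces T 1 → {v} ∈ faces T 1 →
        Relation.ReflTransGen (fun a b => ∃ t ∈ T, a ∈ t ∧ b ∈ t) u v) ∧
      IsCoboundaryExpander T d ε := by
  intro d hd
  have e : ∀ (F : Type) [Field F] (k : ℕ) [NeZero k],
      Vale.Agent.P067.Top.Lat.UpA F k = Vale.Agent.P067.Top.Lat.Up F k := fun F _ k _ =>
    Subgroup.ext fun g => Vale.Agent.P067.Top.Lat.mem_upA
  refine Vale.P067.Link.expanders_of_index ?_ ?_ ?_ d hd
  · intro p _ k s _ _
    have h := Vale.Agent.P067.Top.Lat.finite_quot (F := ZMod p) s k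
    rw [e] at h
    exact h
  · intro p hp k s _ hodd _
    have h := Vale.Agent.P067.Top.Lat.odd_quot (F := ZMod p) hp.out hodd s k
    rw [e] at h
    exact h
  · intro p hp k _ hk m
    refine ⟨m + 3, by omega, ?_⟩
    have h := Vale.Agent.P067.Top.Lat.card_quot_ge (F := ZMod p) hk (m + 3)
    rw [e, Nat.card_zmod] at h
    exact ((Nat.lt_pow_self hp.out.one_lt).le.trans
      (Nat.pow_le_pow_right hp.out.pos (by omega))).trans h

end Vale.Agent.Results.P067.BoundedDegree
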